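import Vale.Agent.P354CB.Ez

/-!
The key lemma for pairs: a corresponding boundary point gives a larger common development.
-/

set_option linter.all false

open scoped ContDiff
open Set Filter Topology Metric

namespace Vale.Agent.P354CB75

open Vale.Agent.P354n
open Vale.Agent.P354I (X)
open Vale.Agent.P354XJ (inv_co co_inv co_mem inv_mem isOpen_tgt on_nhds inv_cont co_cont)
open Vale.Agent.P354CB

/-- **KEY0.** -/
theorem key0 (Z : L0) (a0 : KA0) (a1 : KA1) (a2 : KA2) (kt : KT) (kt2 : KT2) (kh : KH) (kj : KJ)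
    (ks : KS) : KEY0 := by
  intro M N S S' U ψ φ P p p' h hpU hp
  have hM := P.gM.st
  have hN := P.gN.st
  have B := Z.l1.b
  have G := Z.l2.g1 M S P.gM.toGH0
  have H := Z.l2.g2 M S P.gM.toGH0
  have oU := P.hU.op
  have lm := fun x hx => (P.lm x hx).1
  obtain ⟨q, q', q1, q2, q3, q4⟩ := a1 M N S S' U ψ φ P p p' h hpU
    (((G.tri p).resolve_left fun k => hpU (a0 M N S S' U ψ φ P p p' h k)).resolve_right hp)
  have t := a2 M N S S' U ψ φ P q q' q1 q3
  obtain ⟨e', he'⟩ := N.cover q'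
  replace he' : On e' q' := he'
  obtain ⟨r', L', c', nb'⟩ := Z.l1.nb N hN e' _ (co_mem he')
  have v0 : ∀ᶠ x in 𝓝 q, (x ∈ U → On e' (ψ x) ∧ co e' (ψ x) ∈ closedBall (co e' q') r') ∧
      x ∈ Fu M S :=
    (eventually_nhdsWithin_iff.1 (t.eventually ((on_nhds he').and
      ((co_cont he').eventually_mem (closedBall_mem_nhds _ nb'.r0))))).and
      ((Z.l1.opFu hM S).mem_nhds q3)
  obtain ⟨V, V1, V2, V3⟩ := _root_.eventually_nhds_iff.1 v0
  have dn : ∀ x ∈ U, ∀ w ∈ V, LL M w x → w ∈ U := fun x hx w hw l =>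
    P.hU.dn x hx w l (Z.l1.fu_pa hM G (V1 w hw).2)
  obtain ⟨e, he⟩ := M.cover q
  replace he : On e q := he
  obtain ⟨r0, L, c, nb0⟩ := Z.l1.nb M hM e _ (co_mem he)
  obtain ⟨r1, r10, hr⟩ := nhds_basis_closedBall.eventually_iff.1
    ((inv_cont (co_mem he)).eventually_mem (V2.mem_nhds (by rwa [inv_co he])))
  have nb := nb0.mono (lt_min nb0.r0 r10) (min_le_left _ _)
  have inV : ∀ z ∈ closedBall (co e q) (min r0 r1), inv e z ∈ V := fun z hz =>
    hr (closedBall_subset_closedBall (min_le_right _ _) hz)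
  have ci : ContinuousOn (inv e) (tgt e) := fun z hz => (inv_cont hz).continuousWithinAt
  obtain ⟨z, z1, z2, f, f1, f2, f3, f4⟩ := kt M hM e _ _ L c _ nb
    (closedBall (co e q) (min r0 r1) ∩ inv e ⁻¹' {x | x ∉ Pa M S ∧ Le M x q})
    (tgt e ∩ inv e ⁻¹' U)
    ((ci.mono nb.sub).preimage_isClosed_of_isClosed isClosed_closedBall (H.cpt q).isClosed)
    (ci.isOpen_inter_preimage (isOpen_tgt e) oU)
    ⟨mem_closedBall_self nb.r0.le, by
      rw [mem_preimage, inv_co he]; exact ⟨Z.l1.fu_pa hM G q3, Le.rfl⟩⟩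
    (fun k => q2 (inv_co he ▸ k.2))
    (fun z k m n => ⟨nb.sub m, q4 _ k.2.2 k.2.1 fun a => n (by rw [← a, co_inv (nb.sub m)])⟩)
    fun z k m a a1 a2 => by
      have : ContinuousAt (fun s : ℝ => z - s • a) 0 := by fun_prop
      filter_upwards [B.ray hM (nb.sub k.1) a1 a2, nhdsWithin_le_nhds
        (this.eventually_mem (isOpen_ball.mem_nhds (show z - (0 : ℝ) • a ∈ ball _ _ by
          rw [zero_smul, sub_zero]; exact m)))] with s s1 s2
      have s3 := ball_subset_closedBall s2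
      exact ⟨s3, Z.l1.fu_pa hM G (V1 _ (inV _ s3)).2, (Z.l1.le hM s1.1).trans k.2.2⟩
  have zb := ball_subset_closedBall z1
  have zt := nb.sub zb
  have zV := inV z zb
  obtain ⟨y, y0⟩ := exists_ne (0 : X)
  have : (𝓝[≠] y).NeBot := Module.punctured_nhds_neBot ℝ X y
  obtain ⟨J, J1, J2, J3, J4⟩ := kt2 M hM e z zt f f1 f3 y
  have tJ : Tendsto J (𝓝[≠] y) (𝓝 z) := J2 ▸ (J1.continuous.tendsto y).mono_left nhdsWithin_le_nhds
  have ti : Tendsto (fun x => inv e (J x)) (𝓝[≠] y) (𝓝 (inv e z)) := (inv_cont zt).tendsto.comp tJ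
  have iU : ∀ᶠ x in 𝓝[≠] y, inv e (J x) ∈ U := by
    filter_upwards [J4, tJ.eventually f4] with x a b using (b a).2
  obtain ⟨C, hC⟩ := kj M N hM hN U ψ oU lm e' _ r' L' c' _ nb' (inv e z)
    (mem_closure_of_tendsto ti iU) V (V2.mem_nhds zV) (fun x a b => (V1 x b).1 a) dn e (inv_mem zt)
  rw [co_inv zt] at hC
  obtain ⟨χ, χ1, χ2⟩ := ks M N hM hN U ψ oU lm e e' J y _ C y0 J1 (J2 ▸ zt) (J2 ▸ J3)
    (isCompact_closedBall _ _) nb'.sub (by
      filter_upwards [iU, tJ.eventually hC, ti.eventually_mem (V2.mem_nhds zV)] with x a b c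
      exact ⟨a, ((V1 _ c).1 a).1, ((V1 _ c).1 a).2, b a⟩)
  rw [J2] at χ1
  obtain ⟨D, D1, D2, D3, D4, D5⟩ := kh M hM e z zt f f1 f2 f3 U (f4.mono fun x a b => (a b).2)
    _ (inter_mem (V2.mem_nhds zV) χ1) fun x hx w hw => dn x hx w hw.1
  have fu : D ⊆ Fu M S := fun x hx => (V1 x (D1 hx).1).2
  refine ⟨D, χ, D2, ⟨oU.union D2, fun x hx w l n => ?_, fun x hx w l n => ?_⟩, fu,
    fun k => z2 ⟨zt, k D3⟩, fun x hx => (D1 hx).2, ?_⟩
  · rcases hx with hx | hx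
    · exact Or.inl (P.hU.dn x hx w l n)
    · rcases D5 x hx w l with k | k | ⟨u, k, k'⟩
      exacts [Or.inr k, Or.inl k, Or.inl (P.hU.dn u k w k' n)]
  · rcases hx with hx | hx
    · exact Or.inl (P.hU.up x hx w l n)
    · exact (n (Z.l1.fu_up hM (fu hx) l)).elim
  · obtain ⟨x, ⟨x1, x2⟩, x3⟩ := ((iU.and χ2).and (ti.eventually_mem (D2.mem_nhds D3))).exists
    exact Z.k2.rig hM hN (D2.inter oU) (fun x hx => ⟨(D1 hx.1).2, lm x hx.2⟩) Subset.rfl D4
      ⟨x3, x1⟩ x2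

end Vale.Agent.P354CB75
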