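import Vale.Agent.P354CB.Ez

/-!
Time reversal of a pair, and the boundary points on the slice.
-/

set_option linter.all false

open Set Filter Topology

namespace Vale.Agent.P354CB75

open Vale.Agent.P354n
open Vale.Agent.P354CB

variable {M N : Spc} {S U : Set M.pt} {S' : Set N.pt} {ψ : M.pt → N.pt} {φ : N.pt → M.pt}

/-- The time reversal of a pair. -/
theorem pair_rev' (B : B0) (K : LK1) (P : Pair M N S S' U ψ φ) :
    Pair (rev M) (rev N) S S' U ψ φ := by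
  have hM := P.gM.st
  have hN := P.gN.st
  refine ⟨B.gh_rev P.gM, B.gh_rev P.gN, (B.hull_rev hM).2 P.hU, (B.hull_rev hN).2 P.hU',
    fun x hx => ⟨(K.rev hN).2 (P.lm x hx).1, (P.lm x hx).2.1, (K.rev hM).2 (P.lm x hx).2.2⟩,
    fun x hx => ⟨(P.side x hx).1, ?_, ?_⟩, P.edge⟩
  · rw [B.fu_rev hM, B.fu_rev hN]
    exact (P.side x hx).2.2
  · rw [B.pa_rev hM, B.pa_rev hN]
    exact (P.side x hx).2.1

theorem pair_rev (Z : L0) (P : Pair M N S S' U ψ φ) : Pair (rev M) (rev N) S S' U ψ φ :=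
  pair_rev' Z.l1.b Z.k1 P

/-- Points of U which are not in the past of S lie above a point of S in U, and so do their
images. -/
theorem below (Z : L0) (P : Pair M N S S' U ψ φ) {x : M.pt} (hx : x ∈ U) (h : x ∉ Pa M S) :
    ∃ s, s ∈ U ∩ S ∧ Le M s x ∧ Le N (ψ s) (ψ x) := by
  have hM := P.gM.st
  have G := Z.l2.g1 M S P.gM.toGH0
  rcases G.tri x with a | a | a
  · exact ⟨x, ⟨hx, a⟩, Le.rfl, Le.rfl⟩
  · obtain ⟨s, s1, c, c1, rfl, rfl⟩ := a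
    have n := (L1.s_fu G s1).2
    have m := Z.l1.in_dn hM P.hU c1 n hx
    refine ⟨c 0, ⟨m (left_mem_Icc.2 zero_le_one), s1⟩, Z.l1.le hM ⟨c, c1, rfl, rfl⟩,
      Z.l1.le P.gN.st ⟨fun t => ψ (c t), Z.k1.curve hM P.gN.st (uniqueDiffOn_Icc one_pos) c1
        fun t ht => (P.lm _ (m ht)).1, rfl, rfl⟩⟩
  · exact (h a).elim

/-- An ultrafilter for a point in the closure of the graph. -/
theorem ultra {p : M.pt} {p' : N.pt} (h : (p, p') ∈ closure (gr U ψ)) :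
    ∃ F : Ultrafilter M.pt, U ∈ F ∧ (F : Filter M.pt) ≤ 𝓝 p ∧ Tendsto ψ F (𝓝 p') := by
  obtain ⟨F, F1, F2⟩ := mem_closure_iff_ultrafilter.1 h
  refine ⟨F.map Prod.fst, ?_, ?_, ?_⟩
  · exact Ultrafilter.mem_map.2 (mem_of_superset F1 (by rintro _ ⟨x, hx, rfl⟩; exact hx))
  · exact (continuous_fst.tendsto (p, p')).mono_left F2
  · have : Tendsto Prod.snd (F : Filter (M.pt × N.pt)) (𝓝 p') :=
      (continuous_snd.tendsto (p, p')).mono_left F2
    refine tendsto_map'_iff.2 (this.congr' ?_)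
    exact mem_of_superset F1 (by rintro _ ⟨x, hx, rfl⟩; rfl)

theorem of_ultra {ι : Type} {F : Filter ι} [F.NeBot] {s : ι → M.pt} {p : M.pt} {p' : N.pt}
    (h : ∀ᶠ i in F, s i ∈ U) (h1 : Tendsto s F (𝓝 p)) (h2 : Tendsto (fun i => ψ (s i)) F (𝓝 p')) :
    (p, p') ∈ closure (gr U ψ) :=
  mem_closure_of_tendsto (h1.prodMk_nhds h2) (h.mono fun i k => ⟨s i, k, rfl⟩)

theorem exists_ll (B : B0) (h : St M) (p : M.pt) : ∃ z, LL M p z :=
  closure_nonempty_iff.1 ⟨p, B.nearF h p⟩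

theorem ka0_half (Z : L0) (P : Pair M N S S' U ψ φ) {p : M.pt} {p' : N.pt} (hp : p ∈ S)
    (F : Ultrafilter M.pt) (F1 : U ∈ F) (F2 : (F : Filter M.pt) ≤ 𝓝 p) (F3 : Tendsto ψ F (𝓝 p'))
    (F4 : ∀ᶠ x in (F : Filter M.pt), x ∉ Pa M S) : p ∈ U := by
  have hM := P.gM.st
  have hN := P.gN.st
  have G := Z.l2.g1 M S P.gM.toGH0
  have G' := Z.l2.g1 N S' P.gN.toGH0
  have H := Z.l2.g2 M S P.gM.toGH0
  have H' := Z.l2.g2 N S' P.gN.toGH0
  have ex : ∀ x, ∃ s, x ∈ U → x ∉ Pa M S → s ∈ U ∩ S ∧ Le M s x ∧ Le N (ψ s) (ψ x) := fun x => by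
    by_cases a : x ∈ U ∧ x ∉ Pa M S
    · exact (below Z P a.1 a.2).imp fun s k _ _ => k
    · exact ⟨x, fun b c => (a ⟨b, c⟩).elim⟩
  choose s hs using ex
  have e : ∀ᶠ x in (F : Filter M.pt), s x ∈ U ∩ S ∧ Le M (s x) x ∧ Le N (ψ (s x)) (ψ x) := by
    filter_upwards [F1, F4] with x a b using hs x a b
  obtain ⟨z, hz⟩ := exists_ll Z.l1.b hM p
  obtain ⟨z', hz'⟩ := exists_ll Z.l1.b hN p'
  obtain ⟨q, -, q2⟩ := (H.cpt z).ultrafilter_le_nhds' (F.map s) (by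
    refine Ultrafilter.mem_map.2 ?_
    filter_upwards [e, F2 ((Z.l1.opP hM z).mem_nhds hz)] with x a b
    exact ⟨(L1.s_fu G a.1.2).2, a.2.1.trans (Z.l1.le hM b)⟩)
  obtain ⟨q', -, q2'⟩ := (H'.cpt z').ultrafilter_le_nhds' (F.map fun x => ψ (s x)) (by
    refine Ultrafilter.mem_map.2 ?_
    filter_upwards [e, F3 ((Z.l1.opP hN z').mem_nhds hz')] with x a b
    exact ⟨(L1.s_fu G' ((P.side _ a.1.1).1.1 a.1.2)).2, a.2.2.trans (Z.l1.le hN b)⟩)
  have t : Tendsto s F (𝓝 q) := q2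
  have qS : q ∈ S := (Z.l1.closed_s hM G).mem_of_tendsto t (e.mono fun x a => a.1.2)
  have le := H.cl.mem_of_tendsto (t.prodMk_nhds (show Tendsto id F (𝓝 p) from F2))
    (e.mono fun x a => ⟨(L1.s_fu G a.1.2).2, a.2.1⟩)
  obtain rfl : q = p := P.gM.ac q qS p hp le.2
  exact P.edge q qS q' (of_ultra (e.mono fun x a => a.1) t q2')

/-- **KA0.** -/
theorem ka0 (Z : L0) : KA0 := by
  intro M N S S' U ψ φ P p p' h hp
  obtain ⟨F, F1, F2, F3⟩ := ultra h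
  rcases F.mem_or_compl_mem (Pa M S) with a | a
  · refine ka0_half Z (pair_rev Z P) hp F F1 F2 F3 ?_
    rw [Z.l1.b.pa_rev P.gM.st]
    filter_upwards [a] with x k l
    exact Z.l1.fu_pa P.gM.st (Z.l2.g1 M S P.gM.toGH0) l k
  · exact ka0_half Z P hp F F1 F2 F3 a

end Vale.Agent.P354CB75
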